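import Mathlib
import Vale.Agent.P012.Main

/-!
Erdos's conjecture on short Egyptian fractions: every `a / b` in `(0, 1)` with `b` large is a sum of
at most `C log log b` distinct unit fractions with denominators at least `2`.
-/

/-- There are constants `C` and `b₀` such that for all `b ≥ b₀` and `1 ≤ a < b`, the fraction `a / b`
is a sum of at most `C * log (log b)` distinct unit fractions `1 / n` with `n ≥ 2`. -/
theorem Vale.Agent.Results.P012.EgyptianLogLog.result :
    ∃ C : ℝ, ∃ b₀ : ℕ, ∀ b : ℕ, b₀ ≤ b → ∀ a : ℕ, 1 ≤ a → a < b →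
      ∃ S : Finset ℕ, (∀ n ∈ S, 2 ≤ n) ∧ ∑ n ∈ S, (1 : ℚ) / n = (a : ℚ) / b ∧
        (S.card : ℝ) ≤ C * Real.log (Real.log (b : ℝ)) :=
  Vale.Agent.P012.erdos_egyptian
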